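import Vale.Agent.P365.T2.H862.Wire
import Vale.Agent.P365.T2.H213.Spec
import Vale.Agent.P365.T2.H24.K4

/-!
# P365 T2, field `bad` of ONE (helper862): average of the energy of the bad sites of a stage

`Zb W lam E l V` = sites without moving weight or with the pole in bad position.
`bad_stage`: the averaged energy of `Zb` is at most the static share plus `CBE` times the
off-resonant energy; `bad_small`: at most `(C η / S ^ 8 + exp (-S))` per site.
-/

set_option linter.all false

open Finset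

namespace P365T2.H862.BadT

open Matrix Complex MeasureTheory Set P365L P365O P365T1 P365L.TL P365T1.Conc
open Vale.Agent.P365.J376 P365T2.H905 P365T2.H213 P365T2.H24

/-! ### one profile -/

section one

variable {ι κ : Type*} [Fintype ι] [DecidableEq ι] [Fintype κ] {A : Matrix ι ι ℝ} {lam a b : ℝ}

theorem MfBad_nonneg {W : ι → ℂ} (hW : ∀ x, (W x).im < 0) (E : ℝ) (f : ι → ℝ) (z : ι) :
    0 ≤ MfBad lam A W E f z := by
  unfold MfBad
  split_ifs
  · exact le_rfl
  · exact Mf_nonneg hW f z

theorem MfBad_le {W : ι → ℂ} (hW : ∀ x, (W x).im < 0) (E : ℝ) (f : ι → ℝ) (z : ι) :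
    MfBad lam A W E f z ≤ Mf A W f z := by
  unfold MfBad
  split_ifs
  · exact Mf_nonneg hW f z
  · exact le_rfl

theorem integrable_MfBad (hA : A.IsSymm) (m : Measure (ι → ℝ)) [IsFiniteMeasure m] (E : ℝ)
    {e : ι → ℝ} (he : ∀ x, 0 < e x) (f : ι → ℝ) (z : ι) :
    Integrable (fun v => MfBad lam A (WV E e v) E f z) m :=
  (integrable_Mf hA m E he f z).mono' (measurable_MfBad_WV E e f z).aestronglyMeasurable
    (Filter.Eventually.of_forall fun v => by
      rw [Real.norm_eq_abs, abs_of_nonneg (MfBad_nonneg (WV_neg he v) E f z)]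
      exact MfBad_le (WV_neg he v) E f z)

theorem CBE_nonneg (h0 : 0 ≤ lam) (h1 : 0 ≤ b) (E : ℝ) : 0 ≤ CBE lam b E := by
  unfold CBE CB
  positivity

/-- real form of `lint_bad_site` -/
theorem Ex_bad_site (hA : A.IsSymm) {E : ℝ} {e : ι → ℝ} (he : ∀ x, 0 < e x)
    (ν : ι → Measure ℝ) [∀ i, IsProbabilityMeasure (ν i)] (f : ι → ℝ) {z : ι}
    (hz : EdgeLaw lam a b (ν z)) :
    Ex ν E e (fun W => MfBad lam A W E f z) ≤ CBE lam b E * Ex ν E e (fun W => Yf A W f z) := by
  have h := lint_bad_site (lam := lam) (a := a) (b := b) hA (E := E) he ν f hz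
  have hC : 0 ≤ CBE lam b E := CBE_nonneg hz.lam_pos.le hz.b_pos.le E
  have h1 : 0 ≤ Ex ν E e (fun W => Yf A W f z) :=
    integral_nonneg fun v => Yf_nonneg (WV_neg he v) f z
  unfold Ex at h1 ⊢
  rw [← ofReal_integral_eq_lintegral_ofReal (integrable_MfBad hA _ E he f z)
      (Filter.Eventually.of_forall fun v => MfBad_nonneg (WV_neg he v) E f z),
    ← ofReal_integral_eq_lintegral_ofReal (integrable_Yf hA _ E he f z)
      (Filter.Eventually.of_forall fun v => Yf_nonneg (WV_neg he v) f z),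
    ← ENNReal.ofReal_mul hC] at h
  exact (ENNReal.ofReal_le_ofReal_iff (mul_nonneg hC h1)).1 h

end one

/-! ### a stage -/

section stage

variable {N : ℕ} [NeZero N] {W : StW N} {lam E C1 η : ℝ}

open Classical in
/-- the bad sites of a stage: no moving weight, or the pole in bad position -/
noncomputable def Zb (W : StW N) (lam E : ℝ) (l : Tor N → W.Λ) (V : Tor N → ℂ) :
    Finset (Tor N) :=
  univ.filter fun x => ¬ (W.w l x ≠ 0 ∧ pz (AT N) V E x ∈ GdL lam)

/-- energy of the bad sites -/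
noncomputable def BE {κ : Type} [Fintype κ] (W : StW N) (lam E : ℝ) (F : κ → Tor N → ℝ)
    (l : Tor N → W.Λ) (V : Tor N → ℂ) : ℝ :=
  ∑ x ∈ Zb W lam E l V, (-(V x).im) * ∑ k, Mf (AT N) V (F k) x

/-- upper constant of the smooth law of the moving sites -/
noncomputable def bS (lam : ℝ) : ℝ :=
  (2 * (lam - lam * tau0 / 2))⁻¹ * (15 / (4 * (lam * tau0 / 2) ^ 3))

/-- lower constant of the smooth law of the moving sites -/
noncomputable def aS (lam : ℝ) : ℝ :=
  (2 * (lam - lam * tau0 / 2))⁻¹ * (15 / (128 * lam ^ 3))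

theorem edgeLaw_mov (hlam : 0 < lam) (h : W.Ok lam E C1 η) {l : Tor N → W.Λ} {x : Tor N}
    (hx : W.w l x ≠ 0) : EdgeLaw lam (aS lam) (bS lam) (W.ν (l x)) := by
  rw [h.mov l x hx]
  have h0 := tau0_pos
  have h1 := tau0_le
  refine edgeLaw_nuS (by positivity) ?_
  nlinarith

theorem bS_pos (hlam : 0 < lam) : 0 < bS lam := by
  have h0 := tau0_pos
  have h1 := tau0_le
  unfold bS
  have h2 : 0 < lam - lam * tau0 / 2 := by nlinarith
  positivity

/-- pathwise -/
theorem BE_le {κ : Type} [Fintype κ] (h : W.Ok lam E C1 η) (F : κ → Tor N → ℝ) (τ : ℝ)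
    (l : Tor N → W.Λ) (v : Tor N → ℝ) :
    BE W lam E F l (WV E (eT W.u W.w τ l) v) ≤
      ∑ x, W.u l x * ∑ k, Mf (AT N) (WV E (eT W.u W.w τ l) v) (F k) x +
      ∑ x, wT W.w τ l x * ∑ k, (if W.w l x ≠ 0 then
        MfBad lam (AT N) (WV E (eT W.u W.w τ l) v) E (F k) x else 0) := by
  classical
  have he : ∀ x, 0 < eT W.u W.w τ l x := eT_pos h τ l
  set V := WV E (eT W.u W.w τ l) v with hV
  have hneg : ∀ x, (V x).im < 0 := WV_neg he v
  have him : ∀ x, -(V x).im = W.u l x + wT W.w τ l x := by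
    intro x
    have h0 : (V x).im = -(eT W.u W.w τ l x) := by rw [hV]; simp [WV]
    rw [h0, neg_neg]
    rfl
  have hM : ∀ x, 0 ≤ ∑ k, Mf (AT N) V (F k) x := fun x =>
    Finset.sum_nonneg fun k _ => Mf_nonneg hneg (F k) x
  have hw : ∀ x, 0 ≤ wT W.w τ l x := fun x =>
    mul_nonneg (Real.exp_pos _).le (h.w_nonneg l x)
  unfold BE Zb
  rw [← Finset.sum_add_distrib, Finset.sum_filter]
  refine Finset.sum_le_sum fun x _ => ?_
  have hB : 0 ≤ ∑ k, (if W.w l x ≠ 0 then MfBad lam (AT N) V E (F k) x else 0) :=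
    Finset.sum_nonneg fun k _ => by
      split_ifs
      · exact MfBad_nonneg hneg E (F k) x
      · exact le_rfl
  by_cases hx : ¬ (W.w l x ≠ 0 ∧ pz (AT N) V E x ∈ GdL lam)
  · rw [if_pos hx, him x, add_mul]
    refine add_le_add le_rfl ?_
    by_cases hw0 : W.w l x = 0
    · have : wT W.w τ l x = 0 := by
        unfold wT
        rw [hw0, mul_zero]
      rw [this, zero_mul, zero_mul]
    · refine mul_le_mul_of_nonneg_left (Finset.sum_le_sum fun k _ => ?_) (hw x)
      rw [if_pos hw0]
      unfold MfBad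
      rw [if_neg fun hg => hx ⟨hw0, hg⟩]
  · rw [if_neg hx]
    exact add_nonneg (mul_nonneg (u_nonneg h l x) (hM x)) (mul_nonneg (hw x) hB)

/-- **(bad)**: the averaged energy of the bad sites -/
theorem bad_stage {κ : Type} [Fintype κ] (hlam : 0 < lam) (h : W.Ok lam E C1 η)
    (F : κ → Tor N → ℝ) (τ : ℝ) :
    W.Av E τ (fun l V => BE W lam E F l V) ≤
      ShS W E F τ + CBE lam (bS lam) E * W.Yg E F τ := by
  haveI := h.prob
  have hC : 0 ≤ CBE lam (bS lam) E := CBE_nonneg hlam.le (bS_pos hlam).le E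
  unfold StW.Av ShS StW.Yg YG StW.Av AvG
  rw [Finset.mul_sum, ← Finset.sum_add_distrib]
  refine Finset.sum_le_sum fun l _ => ?_
  have hp : 0 ≤ ∏ x, W.p (l x) := Finset.prod_nonneg fun x _ => h.p_nonneg _
  rw [← mul_assoc, mul_comm (CBE lam (bS lam) E) (∏ x, W.p (l x)), mul_assoc, ← mul_add]
  refine mul_le_mul_of_nonneg_left ?_ hp
  have he : ∀ x, 0 < eT W.u W.w τ l x := eT_pos h τ l
  have hw : ∀ x, 0 ≤ wT W.w τ l x := fun x =>
    mul_nonneg (Real.exp_pos _).le (h.w_nonneg l x)
  have i1 : Integrable (fun v => ∑ x, W.u l x * ∑ k, Mf (AT N) (WV E (eT W.u W.w τ l) v) (F k) x)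
      (Measure.pi fun x => W.ν (l x)) :=
    integrable_finset_sum _ fun x _ => (integrable_finset_sum _ fun k _ =>
      integrable_Mf (AT_symm N) _ E he (F k) x).const_mul _
  have i3 : ∀ x k, Integrable (fun v => if W.w l x ≠ 0 then
        MfBad lam (AT N) (WV E (eT W.u W.w τ l) v) E (F k) x else 0)
      (Measure.pi fun x => W.ν (l x)) := by
    intro x k
    by_cases hx : W.w l x ≠ 0
    · simp only [if_pos hx]
      exact integrable_MfBad (AT_symm N) _ E he (F k) x
    · simp only [if_neg hx]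
      exact integrable_zero _ _ _
  have i2 : Integrable (fun v => ∑ x, wT W.w τ l x * ∑ k, (if W.w l x ≠ 0 then
        MfBad lam (AT N) (WV E (eT W.u W.w τ l) v) E (F k) x else 0))
      (Measure.pi fun x => W.ν (l x)) :=
    integrable_finset_sum _ fun x _ => (integrable_finset_sum _ fun k _ => i3 x k).const_mul _
  calc Ex (fun x => W.ν (l x)) E (eT W.u W.w τ l) (fun V => BE W lam E F l V)
      ≤ ∫ v, (∑ x, W.u l x * ∑ k, Mf (AT N) (WV E (eT W.u W.w τ l) v) (F k) x +
          ∑ x, wT W.w τ l x * ∑ k, (if W.w l x ≠ 0 then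
            MfBad lam (AT N) (WV E (eT W.u W.w τ l) v) E (F k) x else 0))
          ∂(Measure.pi fun x => W.ν (l x)) := by
        unfold Ex
        refine integral_mono_of_nonneg (Filter.Eventually.of_forall fun v => ?_) (i1.add i2)
          (Filter.Eventually.of_forall fun v => BE_le h F τ l v)
        refine Finset.sum_nonneg fun x _ => mul_nonneg ?_
          (Finset.sum_nonneg fun k _ => Mf_nonneg (WV_neg he v) (F k) x)
        have := WV_neg (E := E) he v x
        linarith
    _ = Ex (fun x => W.ν (l x)) E (eT W.u W.w τ l)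
          (fun V => ∑ x, W.u l x * ∑ k, Mf (AT N) V (F k) x) +
        ∑ x, wT W.w τ l x * ∑ k, ∫ v, (if W.w l x ≠ 0 then
            MfBad lam (AT N) (WV E (eT W.u W.w τ l) v) E (F k) x else 0)
          ∂(Measure.pi fun x => W.ν (l x)) := by
        rw [integral_add i1 i2]
        congr 1
        rw [integral_finset_sum _ fun x _ => (integrable_finset_sum _ fun k _ => i3 x k).const_mul _]
        refine Finset.sum_congr rfl fun x _ => ?_
        rw [integral_const_mul, integral_finset_sum _ fun k _ => i3 x k]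
    _ ≤ _ := by
        refine add_le_add le_rfl ?_
        rw [Finset.mul_sum]
        refine Finset.sum_le_sum fun x _ => ?_
        rw [mul_left_comm]
        refine mul_le_mul_of_nonneg_left ?_ (hw x)
        rw [Finset.mul_sum]
        refine Finset.sum_le_sum fun k _ => ?_
        by_cases hx : W.w l x ≠ 0
        · simp only [if_pos hx]
          exact Ex_bad_site (AT_symm N) he _ (F k) (edgeLaw_mov hlam h hx)
        · simp only [if_neg hx, integral_zero]
          exact mul_nonneg hC (integral_nonneg fun v => Yf_nonneg (WV_neg he v) (F k) x)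

end stage

end P365T2.H862.BadT
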