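import Vale.Agent.P365.T2.H862.Bad
import Vale.Agent.P365.J376.Bridge

/-!
# P365 T2, row X-GOOD (S3)/(G3) (helper862): content of the sites in bad position, product laws,
arbitrary exterior laws.
-/

set_option linter.all false

namespace P365T2.H862

open MeasureTheory Set P365L P365O P365T1 Vale.Agent.P365.J376
open scoped ENNReal

variable {lam a b : ℝ}
variable {ι : Type*} [Fintype ι] [DecidableEq ι] {A : Matrix ι ι ℝ}

theorem pz_rez (hA : A.IsSymm) {W : ι → ℂ} (hW : ∀ x, (W x).im < 0) (E : ℝ) (z : ι) (u : ℝ) :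
    pz A (rez W z u) E z = pz A W E z := by
  have hv : ((u : ℂ) + ((W z).im : ℂ) * Complex.I).im < 0 := by rw [rez_im]; exact hW z
  unfold pz sz
  have h1 : sg A (rez W z u) z = sg A W z := sg_upd hA hW hv
  have h2 : (rez W z u z).im = (W z).im := by
    unfold rez
    rw [Function.update_self, rez_im]
  rw [h1, h2]

theorem pz_update (hA : A.IsSymm) {E : ℝ} {e : ι → ℝ} (he : ∀ x, 0 < e x) (v : ι → ℝ) (z : ι)
    (t : ℝ) : pz A (WV E e (Function.update v z t)) E z = pz A (WV E e v) E z := by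
  rw [WV_update, pz_rez hA (WV_neg he v)]

theorem measurable_pz_WV (E : ℝ) (e : ι → ℝ) (z : ι) :
    Measurable fun v : ι → ℝ => pz A (WV E e v) E z := by
  unfold pz sz
  have h0 : ∀ v : ι → ℝ, (WV E e v z).im = -(e z) := fun v => by simp [WV]
  simp only [h0]
  exact ((measurable_sg_WV E e z).sub_const _).add_const _

open Classical in
/-- content of `z` on the event that its resonance is in bad position -/
noncomputable def MfBad (lam : ℝ) (A : Matrix ι ι ℝ) (W : ι → ℂ) (E : ℝ) (f : ι → ℝ) (z : ι) : ℝ :=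
  if pz A W E z ∈ GdL lam then 0 else Mf A W f z

theorem measurable_MfBad_WV (E : ℝ) (e : ι → ℝ) (f : ι → ℝ) (z : ι) :
    Measurable fun v : ι → ℝ => MfBad lam A (WV E e v) E f z := by
  unfold MfBad
  exact Measurable.ite ((measurable_pz_WV E e z) (measurableSet_GdL lam)) measurable_const
    (measurable_Mf_WV E e f z)

/-- constant of the bad content -/
noncomputable def CBE (lam b E : ℝ) : ℝ := CB lam b * (2 + 2 * E ^ 2)

/-- **(S3), one site**: only the law of `z` matters, everything else is arbitrary -/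
theorem lint_bad_site (hA : A.IsSymm) {E : ℝ} {e : ι → ℝ} (he : ∀ x, 0 < e x)
    (ν : ι → Measure ℝ) [∀ i, IsProbabilityMeasure (ν i)] (f : ι → ℝ) {z : ι}
    (hz : EdgeLaw lam a b (ν z)) :
    ∫⁻ v, ENNReal.ofReal (MfBad lam A (WV E e v) E f z) ∂(Measure.pi ν) ≤
      ENNReal.ofReal (CBE lam b E) *
        ∫⁻ v, ENNReal.ofReal (Yf A (WV E e v) f z) ∂(Measure.pi ν) := by
  rw [MAff.lintegral_resample ν z (measurable_MfBad_WV E e f z).ennreal_ofReal,
    ← lintegral_const_mul _ (measurable_Yf_WV E e f z).ennreal_ofReal]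
  refine lintegral_mono fun v => ?_
  by_cases hg : pz A (WV E e v) E z ∈ GdL lam
  · have h1 : ∀ t, ENNReal.ofReal (MfBad lam A (WV E e (Function.update v z t)) E f z) = 0 := by
      intro t
      unfold MfBad
      rw [if_pos (by rwa [pz_update hA he]), ENNReal.ofReal_zero]
    simp only [h1, lintegral_zero]
    exact bot_le
  · refine le_trans (le_of_eq ?_) (hz.lint_Mf_bad hA (WV_neg he v) f E z hg)
    refine lintegral_congr fun t => ?_
    unfold MfBad
    rw [if_neg (by rwa [pz_update hA he]), WV_update]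

/-- **(S3)**: weighted sum over any set of sites with edge laws -/
theorem lint_bad_sum (hA : A.IsSymm) {E : ℝ} {e : ι → ℝ} (he : ∀ x, 0 < e x)
    (ν : ι → Measure ℝ) [∀ i, IsProbabilityMeasure (ν i)] (f : ι → ℝ) (M : Finset ι)
    (c : ι → ℝ≥0∞) (hM : ∀ z ∈ M, EdgeLaw lam a b (ν z)) :
    ∑ z ∈ M, c z * ∫⁻ v, ENNReal.ofReal (MfBad lam A (WV E e v) E f z) ∂(Measure.pi ν) ≤
      ENNReal.ofReal (CBE lam b E) *
        ∑ z ∈ M, c z * ∫⁻ v, ENNReal.ofReal (Yf A (WV E e v) f z) ∂(Measure.pi ν) := by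
  rw [Finset.mul_sum]
  refine Finset.sum_le_sum fun z hz => ?_
  calc c z * ∫⁻ v, ENNReal.ofReal (MfBad lam A (WV E e v) E f z) ∂(Measure.pi ν)
      ≤ c z * (ENNReal.ofReal (CBE lam b E) *
        ∫⁻ v, ENNReal.ofReal (Yf A (WV E e v) f z) ∂(Measure.pi ν)) := by
        gcongr
        exact lint_bad_site hA he ν f (hM z hz)
    _ = _ := by ring

end P365T2.H862
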