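import Vale.Agent.P365.T2.H862.Good

/-!
# P365 T2, row X-GOOD (helper862): the three fields of 216's `LawAv` for edge laws (lintegral form)
-/

set_option linter.all false

namespace P365T2.H862

open MeasureTheory Set P365L P365O P365T1
open scoped ENNReal

variable {lam a b : ℝ} {ν : Measure ℝ}

/-- good poles -/
def GdL (lam : ℝ) : Set ℂ := {p | good lam p.re p.im}

theorem measurableSet_GdL (lam : ℝ) : MeasurableSet (GdL lam) := by
  have h1 : Measurable fun p : ℂ => ph lam p.re :=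
    (continuous_ph lam).measurable.comp Complex.measurable_re
  exact (measurableSet_le (Complex.measurable_im.const_mul 40) h1).inter
    (measurableSet_le Complex.measurable_im (h1.pow_const 3))

theorem norm_sq_eq_dn (p : ℂ) (v : ℝ) : ‖(v : ℂ) - p‖ ^ 2 = dn p.re p.im v := by
  rw [← Complex.normSq_eq_norm_sq, Complex.normSq_apply, dn]
  simp
  ring

theorem EdgeLaw.lint_eq (h : EdgeLaw lam a b ν) {p : ℂ} (hp : 0 < p.im) :
    ∫⁻ v, ENNReal.ofReal (1 / ‖(v : ℂ) - p‖ ^ 2) ∂ν = ENNReal.ofReal (Mn ν p.re p.im) := by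
  haveI := h.prob
  have h1 : ∀ v : ℝ, 1 / ‖(v : ℂ) - p‖ ^ 2 = (dn p.re p.im v)⁻¹ := fun v => by
    rw [norm_sq_eq_dn, one_div]
  simp only [h1]
  rw [Mn, ofReal_integral_eq_lintegral_ofReal]
  · refine Integrable.of_bound (continuous_dn _ _).measurable.inv.aestronglyMeasurable
      (p.im ^ 2)⁻¹ (Filter.Eventually.of_forall fun v => ?_)
    rw [Real.norm_eq_abs, abs_of_nonneg (inv_nonneg.2 (dn_pos hp _ _).le)]
    exact inv_anti₀ (by positivity) (dn_ge _ _)
  · exact Filter.Eventually.of_forall fun v => inv_nonneg.2 (dn_pos hp _ _).le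

/-- field `bad` of `LawAv` -/
theorem EdgeLaw.bad_lint (h : EdgeLaw lam a b ν) {p : ℂ} (hp : 0 < p.im) (hg : p ∉ GdL lam) :
    ∫⁻ v, ENNReal.ofReal (1 / ‖(v : ℂ) - p‖ ^ 2) ∂ν ≤
      ENNReal.ofReal (CB lam b / (1 + ‖p‖ ^ 2)) := by
  rw [h.lint_eq hp]
  refine ENNReal.ofReal_le_ofReal ((h.Mn_bad hp hg).trans (le_of_eq ?_))
  rw [← Complex.normSq_eq_norm_sq, Complex.normSq_apply]
  congr 1
  ring

/-- affine change of variables -/
theorem lint_affine {F : ℝ → ℝ≥0∞} (hF : Measurable F) (c : ℝ) {t : ℝ} (ht : 0 < t) :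
    ∫⁻ v, F v = ENNReal.ofReal t * ∫⁻ x, F (c + t * x) := by
  have h9 : ∫⁻ v, F v = ∫⁻ v, F (c + v) := (lintegral_add_left_eq_self F c).symm
  have hF' : Measurable fun v => F (c + v) := hF.comp (measurable_const.add measurable_id)
  have h10 : ∫⁻ x, F (c + t * x) = ∫⁻ y, F (c + y) ∂(Measure.map (t * ·) volume) := by
    rw [lintegral_map hF' (measurable_const_mul t)]
  rw [h9, h10, Real.map_volume_mul_left ht.ne', lintegral_smul_measure, smul_eq_mul, ← mul_assoc,
    ← ENNReal.ofReal_mul ht.le, abs_of_pos (inv_pos.2 ht), mul_inv_cancel₀ ht.ne',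
    ENNReal.ofReal_one, one_mul]

/-- constant of the field `good` -/
noncomputable def CL (lam a b : ℝ) : ℝ := (4 * b * Real.pi + 24 * b * lam ^ 2) * (16 / a)

/-- field `good` of `LawAv` -/
theorem EdgeLaw.good_lint (h : EdgeLaw lam a b ν) {p : ℂ} (hp : 0 < p.im) (hg : p ∈ GdL lam) :
    ∃ M : ℝ≥0∞, M ≠ ⊤ ∧
      ∫⁻ v, ENNReal.ofReal (1 / ‖(v : ℂ) - p‖ ^ 2) ∂ν ≤ ENNReal.ofReal (CL lam a b) * M ∧
      ∀ g : ℝ → ℝ≥0∞, Measurable g → M * ∫⁻ x in Icc (-1 : ℝ) 1, g (p.re + p.im * x) ≤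
        ∫⁻ v, g v * ENNReal.ofReal (1 / ‖(v : ℂ) - p‖ ^ 2) ∂ν := by
  have hlam := h.lam_pos
  have ha0 := h.a_pos
  have hb0 := h.b_pos
  have hπ := Real.pi_pos
  have hφ : 0 < ph lam p.re := lt_of_lt_of_le (by positivity) hg.1
  have hc : |p.re| ≤ 2 * lam := by
    by_contra hcon
    push Not at hcon
    rw [ph_zero (by linarith)] at hφ
    exact lt_irrefl _ hφ
  have hM : 0 ≤ a * ph lam p.re ^ 3 / (16 * p.im) := by positivity
  refine ⟨ENNReal.ofReal (a * ph lam p.re ^ 3 / (16 * p.im)), ENNReal.ofReal_ne_top, ?_, ?_⟩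
  · rw [h.lint_eq hp, ← ENNReal.ofReal_mul (by unfold CL; positivity)]
    refine ENNReal.ofReal_le_ofReal ((h.Mn_le hp hc).trans ?_)
    have h2 : 1 ≤ ph lam p.re ^ 3 / p.im := by
      rw [le_div_iff₀ hp, one_mul]
      exact hg.2
    have h3 : 0 ≤ 24 * b * lam ^ 2 := by positivity
    have h4 : CL lam a b * (a * ph lam p.re ^ 3 / (16 * p.im)) =
        (4 * b * Real.pi + 24 * b * lam ^ 2) * (ph lam p.re ^ 3 / p.im) := by
      unfold CL
      field_simp
    rw [h4]
    nlinarith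
  · intro g hgm
    obtain ⟨ρ, hm, hν, hb⟩ := h.dens
    have h1 : ∀ x ∈ Icc (-1 : ℝ) 1, a * ph lam p.re ^ 3 / (16 * p.im) / p.im ≤
        ρ (p.re + p.im * x) * (1 / ‖((p.re + p.im * x : ℝ) : ℂ) - p‖ ^ 2) := by
      intro x hx
      have h2 : |p.re + p.im * x - p.re| ≤ p.im := by
        rw [add_sub_cancel_left, abs_mul, abs_of_pos hp]
        exact mul_le_of_le_one_right hp.le (abs_le.2 hx)
      have h3 : ph lam p.re / 2 ≤ ph lam (p.re + p.im * x) := by
        have h4 := ph_lip lam p.re (p.re + p.im * x)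
        rw [abs_sub_comm] at h4
        have h5 := hg.1
        linarith
      have h4 : a * ph lam p.re ^ 3 / 8 ≤ ρ (p.re + p.im * x) := by
        refine le_trans ?_ (hb _).1
        have h5 : (ph lam p.re / 2) ^ 3 ≤ ph lam (p.re + p.im * x) ^ 3 :=
          pow_le_pow_left₀ (by positivity) h3 3
        calc a * ph lam p.re ^ 3 / 8 = a * (ph lam p.re / 2) ^ 3 := by ring
          _ ≤ _ := mul_le_mul_of_nonneg_left h5 ha0.le
      have h5 : 1 / (2 * p.im ^ 2) ≤ 1 / ‖((p.re + p.im * x : ℝ) : ℂ) - p‖ ^ 2 := by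
        rw [norm_sq_eq_dn]
        refine one_div_le_one_div_of_le (dn_pos hp _ _) ?_
        unfold dn
        have := pow_le_pow_left₀ (abs_nonneg _) h2 2
        rw [sq_abs] at this
        linarith
      calc a * ph lam p.re ^ 3 / (16 * p.im) / p.im =
            a * ph lam p.re ^ 3 / 8 * (1 / (2 * p.im ^ 2)) := by
            field_simp
            ring
        _ ≤ _ := mul_le_mul h4 h5 (by positivity) (le_trans (by positivity) h4)
    have h0 : ∀ v, 0 ≤ ρ v := fun v =>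
      (mul_nonneg ha0.le (pow_nonneg (ph_nonneg _ _) 3)).trans (hb v).1
    have hF : Measurable fun v : ℝ => g v * ENNReal.ofReal (1 / ‖(v : ℂ) - p‖ ^ 2) := by
      refine hgm.mul (Measurable.ennreal_ofReal ?_)
      exact measurable_const.div
        (((Complex.measurable_ofReal.sub_const p).norm).pow_const 2)
    rw [hν, lintegral_withDensity_eq_lintegral_mul _ hm.ennreal_ofReal hF]
    have h6 := lint_affine (hm.ennreal_ofReal.mul hF) p.re hp
    rw [h6]
    have h11 : ∫⁻ x in Icc (-1 : ℝ) 1, g (p.re + p.im * x) *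
        ENNReal.ofReal (a * ph lam p.re ^ 3 / (16 * p.im) / p.im) ≤
        ∫⁻ x, ((fun v => ENNReal.ofReal (ρ v)) *
        fun v : ℝ => g v * ENNReal.ofReal (1 / ‖(v : ℂ) - p‖ ^ 2)) (p.re + p.im * x) := by
      refine le_trans (setLIntegral_mono' measurableSet_Icc fun x hx => ?_)
        (setLIntegral_le_lintegral (Icc (-1 : ℝ) 1) _)
      simp only [Pi.mul_apply]
      rw [← mul_assoc, mul_comm (ENNReal.ofReal (ρ _)) (g _), mul_assoc,
        ← ENNReal.ofReal_mul (h0 _)]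
      gcongr
      exact h1 x hx
    calc ENNReal.ofReal (a * ph lam p.re ^ 3 / (16 * p.im)) *
          ∫⁻ x in Icc (-1 : ℝ) 1, g (p.re + p.im * x)
        = ENNReal.ofReal p.im * ∫⁻ x in Icc (-1 : ℝ) 1, g (p.re + p.im * x) *
          ENNReal.ofReal (a * ph lam p.re ^ 3 / (16 * p.im) / p.im) := by
          rw [lintegral_mul_const' _ _ ENNReal.ofReal_ne_top, mul_comm _ (ENNReal.ofReal _),
            ← mul_assoc, ← ENNReal.ofReal_mul hp.le]
          congr 2
          field_simp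
      _ ≤ _ := by gcongr

end P365T2.H862
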