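import Vale.Agent.P365.T2.H862.GoodL

/-!
# P365 T2, row X-GOOD (G3), (G4) (helper862): content of a site in bad position, and away from the
resonance.
-/

set_option linter.all false

namespace P365T2.H862

open MeasureTheory Set P365L P365O P365T1
open scoped ENNReal

variable {lam a b : ℝ} {ν : Measure ℝ}
variable {ι : Type*} [Fintype ι] [DecidableEq ι] {A : Matrix ι ι ℝ} {W : ι → ℂ}

/-- pole on the line of `V_z` (energy `E`) -/
noncomputable def pz (A : Matrix ι ι ℝ) (W : ι → ℂ) (E : ℝ) (z : ι) : ℂ := sz A W z + (E : ℂ)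

theorem pz_im (E : ℝ) (z : ι) : (pz A W E z).im = (sz A W z).im := by
  rw [pz, Complex.add_im, Complex.ofReal_im, add_zero]

theorem sz_im_pos (hA : A.IsSymm) (hW : ∀ x, (W x).im < 0) (z : ι) : 0 < (sz A W z).im := by
  have h1 := sg_im_nonneg hA hW z
  unfold sz
  simp
  linarith [hW z]

theorem dn_pz (E : ℝ) (z : ι) (v : ℝ) :
    ‖((v - E : ℝ) : ℂ) - sz A W z‖ ^ 2 = dn (pz A W E z).re (pz A W E z).im v := by
  rw [← norm_sq_eq_dn, pz]
  congr 2
  push_cast
  ring

theorem Mf_line (hA : A.IsSymm) (hW : ∀ x, (W x).im < 0) (f : ι → ℝ) (E : ℝ) (z : ι) (v : ℝ) :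
    Mf A (rez W z (v - E)) f z = Nf A W f z * (dn (pz A W E z).re (pz A W E z).im v)⁻¹ := by
  rw [Mf_rez hA hW, dn_pz, div_eq_mul_inv]

theorem Yf_ge (hA : A.IsSymm) (hW : ∀ x, (W x).im < 0) (f : ι → ℝ) (E : ℝ) (z : ι) :
    Nf A W f z / (1 + (pz A W E z).re ^ 2 + (pz A W E z).im ^ 2) ≤
      (2 + 2 * E ^ 2) * Yf A W f z := by
  have hN := Nf_nonneg (A := A) hW f z
  have hg := sg_im_nonneg hA hW z
  have h0 : 0 < 1 + (pz A W E z).re ^ 2 + (pz A W E z).im ^ 2 := by positivity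
  have h1 : 1 + ‖sg A W z‖ ^ 2 ≤
      (2 + 2 * E ^ 2) * (1 + (pz A W E z).re ^ 2 + (pz A W E z).im ^ 2) := by
    have h2 : ‖sg A W z‖ ^ 2 = (sg A W z).re ^ 2 + (sg A W z).im ^ 2 := by
      rw [← Complex.normSq_eq_norm_sq, Complex.normSq_apply]
      ring
    have h3 : (pz A W E z).re = (sg A W z).re + E := by
      unfold pz sz
      simp
    have h4 : (sg A W z).im ≤ (pz A W E z).im := by
      rw [pz_im]
      unfold sz
      simp
      linarith [hW z]
    rw [h2]
    have h5 : (sg A W z).im ^ 2 ≤ (pz A W E z).im ^ 2 := pow_le_pow_left₀ hg h4 2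
    have h6 : (sg A W z).re = (pz A W E z).re - E := by rw [h3]; ring
    rw [h6]
    nlinarith [sq_nonneg ((pz A W E z).re + E), sq_nonneg E, sq_nonneg ((pz A W E z).re),
      sq_nonneg ((pz A W E z).im), mul_nonneg (sq_nonneg E) (sq_nonneg (pz A W E z).re),
      mul_nonneg (sq_nonneg E) (sq_nonneg (pz A W E z).im)]
  rw [Yf, ← mul_div_assoc, div_le_div_iff₀ h0 (by positivity)]
  nlinarith

/-- **(G3)** content of a site in bad position is paid by the off-resonant energy -/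
theorem EdgeLaw.Mf_bad (h : EdgeLaw lam a b ν) (hA : A.IsSymm) (hW : ∀ x, (W x).im < 0)
    (f : ι → ℝ) (E : ℝ) (z : ι) (hb : pz A W E z ∉ GdL lam) :
    ∫ v, Mf A (rez W z (v - E)) f z ∂ν ≤ CB lam b * (2 + 2 * E ^ 2) * Yf A W f z := by
  have hp : 0 < (pz A W E z).im := by rw [pz_im]; exact sz_im_pos hA hW z
  have h1 : ∫ v, Mf A (rez W z (v - E)) f z ∂ν =
      Nf A W f z * Mn ν (pz A W E z).re (pz A W E z).im := by
    rw [Mn, ← integral_const_mul]
    exact integral_congr_ae (Filter.Eventually.of_forall fun v => Mf_line hA hW f E z v)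
  have hCB : 0 ≤ CB lam b := by
    have := h.lam_pos
    have := h.b_pos
    unfold CB
    positivity
  rw [h1]
  calc Nf A W f z * Mn ν (pz A W E z).re (pz A W E z).im
      ≤ Nf A W f z * (CB lam b / (1 + (pz A W E z).re ^ 2 + (pz A W E z).im ^ 2)) :=
        mul_le_mul_of_nonneg_left (h.Mn_bad hp hb) (Nf_nonneg (A := A) hW f z)
    _ = CB lam b * (Nf A W f z / (1 + (pz A W E z).re ^ 2 + (pz A W E z).im ^ 2)) := by ring
    _ ≤ CB lam b * ((2 + 2 * E ^ 2) * Yf A W f z) :=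
        mul_le_mul_of_nonneg_left (Yf_ge hA hW f E z) hCB
    _ = _ := by ring

/-- **(G3)**, lintegral form -/
theorem EdgeLaw.lint_Mf_bad (h : EdgeLaw lam a b ν) (hA : A.IsSymm) (hW : ∀ x, (W x).im < 0)
    (f : ι → ℝ) (E : ℝ) (z : ι) (hb : pz A W E z ∉ GdL lam) :
    ∫⁻ v, ENNReal.ofReal (Mf A (rez W z (v - E)) f z) ∂ν ≤
      ENNReal.ofReal (CB lam b * (2 + 2 * E ^ 2)) * ENNReal.ofReal (Yf A W f z) := by
  haveI := h.prob
  have hp : 0 < (pz A W E z).im := by rw [pz_im]; exact sz_im_pos hA hW z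
  have hCB : 0 ≤ CB lam b := by
    have := h.lam_pos
    have := h.b_pos
    unfold CB
    positivity
  rw [← ENNReal.ofReal_mul (by positivity), ← ofReal_integral_eq_lintegral_ofReal]
  · exact ENNReal.ofReal_le_ofReal (h.Mf_bad hA hW f E z hb)
  · simp only [Mf_line hA hW]
    refine Integrable.const_mul (Integrable.of_bound
      (continuous_dn _ _).measurable.inv.aestronglyMeasurable ((pz A W E z).im ^ 2)⁻¹
      (Filter.Eventually.of_forall fun v => ?_)) _
    show ‖(dn (pz A W E z).re (pz A W E z).im v)⁻¹‖ ≤ _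
    rw [Real.norm_eq_abs, abs_of_nonneg (inv_nonneg.2 (dn_pos hp _ _).le)]
    exact inv_anti₀ (by positivity) (dn_ge _ _)
  · refine Filter.Eventually.of_forall fun v => ?_
    simp only [Mf_line hA hW]
    exact mul_nonneg (Nf_nonneg (A := A) hW f z) (inv_nonneg.2 (dn_pos hp _ _).le)

/-- mass of the resonance at distance more than `X Γ` from its centre -/
theorem EdgeLaw.Mn_narrow (h : EdgeLaw lam a b ν) {Γ X : ℝ} (hΓ : 0 < Γ) (hX : 1 ≤ X) {c : ℝ}
    (hg : good lam c Γ) :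
    ∫ v, {v | X * Γ < |v - c|}.indicator (fun v => (dn c Γ v)⁻¹) v ∂ν ≤
      (8 * b * Real.pi / X) * (ph lam c ^ 3 / Γ) + 24 * b * lam ^ 2 := by
  obtain ⟨ρ, hm, hb, h0, hs, hi⟩ := h.integral_eq
  have hlam := h.lam_pos
  have hb0 := h.b_pos
  have hXΓ : 0 < X * Γ := by positivity
  rw [hi]
  have hφ : 0 < ph lam c := lt_of_lt_of_le (by positivity) hg.1
  have hc : |c| ≤ 2 * lam := by
    by_contra hcon
    push Not at hcon
    rw [ph_zero (by linarith)] at hφ
    exact lt_irrefl _ hφ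
  have h1 : ∀ v, ρ v * {v | X * Γ < |v - c|}.indicator (fun v => (dn c Γ v)⁻¹) v ≤
      8 * b * ph lam c ^ 3 * (dn c (X * Γ) v)⁻¹ +
        (Icc (-lam) lam).indicator (fun _ => 12 * b * lam) v := by
    intro v
    have hd := dn_pos hΓ c v
    have hd2 := dn_pos hXΓ c v
    have hp3 : 0 ≤ ph lam c ^ 3 := pow_nonneg (ph_nonneg _ _) 3
    have hR : 0 ≤ 8 * b * ph lam c ^ 3 * (dn c (X * Γ) v)⁻¹ +
        (Icc (-lam) lam).indicator (fun _ => 12 * b * lam) v := by
      refine add_nonneg (mul_nonneg (by positivity) (inv_nonneg.2 hd2.le))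
        (indicator_nonneg (fun _ _ => by positivity) v)
    by_cases hw : v ∈ {v | X * Γ < |v - c|}
    swap
    · rw [indicator_of_notMem hw, mul_zero]
      exact hR
    rw [indicator_of_mem hw]
    by_cases hv : v ∈ Icc (-lam) lam
    swap
    · rw [hs v hv, zero_mul]
      exact hR
    rw [indicator_of_mem hv]
    have h3 : ph lam v ^ 3 ≤ 4 * ph lam c ^ 3 + 4 * |v - c| ^ 3 := by
      have h4 : ph lam v ^ 3 ≤ (ph lam c + |v - c|) ^ 3 :=
        pow_le_pow_left₀ (ph_nonneg _ _) (ph_lip lam v c) 3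
      have h5 := ph_nonneg lam c
      have h6 := abs_nonneg (v - c)
      nlinarith [mul_nonneg (add_nonneg h5 h6) (sq_nonneg (ph lam c - |v - c|))]
    have h7 : ρ v ≤ b * (4 * ph lam c ^ 3 + 4 * |v - c| ^ 3) :=
      (hb v).2.trans (mul_le_mul_of_nonneg_left h3 hb0.le)
    have h8 : |v - c| ^ 3 * (dn c Γ v)⁻¹ ≤ 3 * lam := by
      rw [← div_eq_mul_inv, div_le_iff₀ hd]
      have h9 : |v - c| ≤ 3 * lam := by
        have := abs_sub v c
        have h10 : |v| ≤ lam := abs_le.2 hv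
        have h11 : |c| < lam := by
          by_contra hcon
          push Not at hcon
          rw [ph_zero hcon] at hφ
          exact lt_irrefl _ hφ
        linarith
      have h11 : |v - c| ^ 2 ≤ dn c Γ v := by
        rw [sq_abs]
        unfold dn
        linarith [sq_nonneg Γ]
      calc |v - c| ^ 3 = |v - c| * |v - c| ^ 2 := by ring
        _ ≤ (3 * lam) * dn c Γ v :=
          mul_le_mul h9 h11 (sq_nonneg _) (by positivity)
    have h12 : (dn c Γ v)⁻¹ ≤ 2 * (dn c (X * Γ) v)⁻¹ := by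
      rw [← div_eq_mul_inv, le_div_iff₀ hd2, inv_mul_le_iff₀ hd]
      have h13 : X * Γ < |v - c| := hw
      have h14 : (X * Γ) ^ 2 ≤ (v - c) ^ 2 := by
        have := pow_le_pow_left₀ hXΓ.le h13.le 2
        rwa [sq_abs] at this
      unfold dn
      nlinarith [sq_nonneg Γ]
    calc ρ v * (dn c Γ v)⁻¹ ≤ b * (4 * ph lam c ^ 3 + 4 * |v - c| ^ 3) * (dn c Γ v)⁻¹ :=
          mul_le_mul_of_nonneg_right h7 (inv_nonneg.2 hd.le)
      _ = 4 * b * ph lam c ^ 3 * (dn c Γ v)⁻¹ + 4 * b * (|v - c| ^ 3 * (dn c Γ v)⁻¹) := by ring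
      _ ≤ 4 * b * ph lam c ^ 3 * (2 * (dn c (X * Γ) v)⁻¹) + 4 * b * (3 * lam) := by gcongr
      _ = _ := by ring
  have hI1 : Integrable (fun v => 8 * b * ph lam c ^ 3 * (dn c (X * Γ) v)⁻¹) :=
    (integrable_dn_inv hXΓ c).const_mul _
  have hI2 : Integrable ((Icc (-lam) lam).indicator fun _ : ℝ => 12 * b * lam) :=
    (continuous_const.integrableOn_Icc).integrable_indicator measurableSet_Icc
  have h2 : ∫ v, ρ v * {v | X * Γ < |v - c|}.indicator (fun v => (dn c Γ v)⁻¹) v ≤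
      ∫ v, (8 * b * ph lam c ^ 3 * (dn c (X * Γ) v)⁻¹ +
        (Icc (-lam) lam).indicator (fun _ => 12 * b * lam) v) :=
    integral_mono_of_nonneg (Filter.Eventually.of_forall fun v =>
      mul_nonneg (h0 v) (indicator_nonneg (fun v _ => inv_nonneg.2 (dn_pos hΓ c v).le) v))
      (hI1.add hI2) (Filter.Eventually.of_forall h1)
  refine h2.trans (le_of_eq ?_)
  rw [integral_add hI1 hI2, integral_const_mul, integral_dn_inv hXΓ, integral_indicator measurableSet_Icc,
    setIntegral_const, Real.volume_real_Icc_of_le (by linarith), smul_eq_mul]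
  field_simp
  ring

end P365T2.H862
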