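import Vale.Agent.P365.T1.Defs
import Vale.Agent.P365.T1a.Mix

/-!
# P365 T2, row X-GOOD (helper862): the smooth law on one line.

`ph lam v = max 0 (lam - |v|)` = depth of `v` in `[-lam, lam]`.  Law with density `ρ`,
`a ph³ ≤ ρ ≤ b ph³`.  Resonance with centre `c` and width `Γ`.
-/

set_option linter.all false

namespace P365T2.H862

open MeasureTheory Set P365L P365O P365T1

/-- depth -/
noncomputable def ph (lam v : ℝ) : ℝ := max 0 (lam - |v|)

theorem ph_nonneg (lam v : ℝ) : 0 ≤ ph lam v := le_max_left _ _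

theorem ph_le {lam : ℝ} (hl : 0 ≤ lam) (v : ℝ) : ph lam v ≤ lam :=
  max_le hl (by linarith [abs_nonneg v])

theorem ph_lip (lam v w : ℝ) : ph lam v ≤ ph lam w + |v - w| := by
  unfold ph
  refine max_le (add_nonneg (le_max_left _ _) (abs_nonneg _)) ?_
  have h1 : |w| ≤ |v| + |v - w| := by
    have := abs_sub_abs_le_abs_sub w v
    rw [abs_sub_comm] at this
    linarith
  have h2 := le_max_right (0 : ℝ) (lam - |w|)
  linarith

theorem ph_zero {lam v : ℝ} (h : lam ≤ |v|) : ph lam v = 0 := max_eq_left (by linarith)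

theorem continuous_ph (lam : ℝ) : Continuous (ph lam) :=
  continuous_const.max (continuous_const.sub continuous_abs)

/-- laws with a density comparable to the third power of the depth -/
structure EdgeLaw (lam a b : ℝ) (ν : Measure ℝ) : Prop where
  prob : IsProbabilityMeasure ν
  lam_pos : 0 < lam
  a_pos : 0 < a
  b_pos : 0 < b
  dens : ∃ ρ : ℝ → ℝ, Measurable ρ ∧ ν = volume.withDensity (fun v => ENNReal.ofReal (ρ v)) ∧
    ∀ v, a * ph lam v ^ 3 ≤ ρ v ∧ ρ v ≤ b * ph lam v ^ 3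

/-- resonance denominator -/
noncomputable def dn (c Γ v : ℝ) : ℝ := (v - c) ^ 2 + Γ ^ 2

theorem dn_pos {Γ : ℝ} (hΓ : 0 < Γ) (c v : ℝ) : 0 < dn c Γ v := by
  unfold dn
  have := sq_nonneg (v - c)
  positivity

theorem dn_ge {Γ : ℝ} (c v : ℝ) : Γ ^ 2 ≤ dn c Γ v := by
  unfold dn
  linarith [sq_nonneg (v - c)]

theorem continuous_dn (c Γ : ℝ) : Continuous (dn c Γ) := by
  unfold dn
  fun_prop

/-- total mass of the resonance under the law -/
noncomputable def Mn (ν : Measure ℝ) (c Γ : ℝ) : ℝ := ∫ v, (dn c Γ v)⁻¹ ∂ν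

/-- good position of the resonance: the depth of the centre is at least `40 Γ` and the mass of
the resonance dominates -/
def good (lam c Γ : ℝ) : Prop := 40 * Γ ≤ ph lam c ∧ Γ ≤ ph lam c ^ 3

section core

variable {lam a b : ℝ} {ν : Measure ℝ}

/-- integral against the law -/
theorem EdgeLaw.integral_eq (h : EdgeLaw lam a b ν) :
    ∃ ρ : ℝ → ℝ, Measurable ρ ∧ (∀ v, a * ph lam v ^ 3 ≤ ρ v ∧ ρ v ≤ b * ph lam v ^ 3) ∧
      (∀ v, 0 ≤ ρ v) ∧ (∀ v, v ∉ Icc (-lam) lam → ρ v = 0) ∧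
      ∀ g : ℝ → ℝ, ∫ v, g v ∂ν = ∫ v, ρ v * g v := by
  obtain ⟨ρ, hm, hν, hb⟩ := h.dens
  have h0 : ∀ v, 0 ≤ ρ v := fun v =>
    (mul_nonneg h.a_pos.le (pow_nonneg (ph_nonneg _ _) 3)).trans (hb v).1
  refine ⟨ρ, hm, hb, h0, ?_, ?_⟩
  · intro v hv
    have h1 : ph lam v = 0 := by
      refine ph_zero ?_
      by_contra h2
      push Not at h2
      exact hv ⟨by linarith [(abs_lt.1 h2).1], by linarith [(abs_lt.1 h2).2]⟩
    have h2 := (hb v).2
    rw [h1] at h2
    have := h0 v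
    simp at h2
    linarith
  · intro g
    rw [hν, integral_withDensity_eq_integral_toReal_smul hm.ennreal_ofReal
      (Filter.Eventually.of_forall fun _ => ENNReal.ofReal_lt_top)]
    refine integral_congr_ae (Filter.Eventually.of_forall fun v => ?_)
    simp only [ENNReal.toReal_ofReal (h0 v), smul_eq_mul]

theorem integrable_dn_inv {Γ : ℝ} (hΓ : 0 < Γ) (c : ℝ) :
    Integrable (fun v => (dn c Γ v)⁻¹) := by
  have h1 : Integrable (fun x : ℝ => (1 + x ^ 2)⁻¹) := integrable_inv_one_add_sq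
  have h2 := (h1.comp_div hΓ.ne').comp_sub_right c
  have h3 := h2.const_mul (Γ ^ 2)⁻¹
  refine h3.congr (Filter.Eventually.of_forall fun v => ?_)
  simp only [dn]
  have h4 : (1 + ((v - c) / Γ) ^ 2) = ((v - c) ^ 2 + Γ ^ 2) / Γ ^ 2 := by
    field_simp
    ring
  rw [h4, inv_div, div_eq_mul_inv, ← mul_assoc, inv_mul_cancel₀ (by positivity), one_mul]

theorem integral_dn_inv {Γ : ℝ} (hΓ : 0 < Γ) (c : ℝ) :
    ∫ v, (dn c Γ v)⁻¹ = Real.pi / Γ := by
  have h1 : ∀ v, (dn c Γ v)⁻¹ = (Γ ^ 2)⁻¹ * (1 + ((v - c) / Γ) ^ 2)⁻¹ := by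
    intro v
    simp only [dn]
    have h4 : (1 + ((v - c) / Γ) ^ 2) = ((v - c) ^ 2 + Γ ^ 2) / Γ ^ 2 := by
      field_simp
      ring
    rw [h4, inv_div, div_eq_mul_inv, ← mul_assoc, inv_mul_cancel₀ (by positivity), one_mul]
  simp only [h1]
  rw [integral_const_mul, integral_sub_right_eq_self (fun v => (1 + (v / Γ) ^ 2)⁻¹) c,
    Measure.integral_comp_div (fun x => (1 + x ^ 2)⁻¹) Γ, abs_of_pos hΓ,
    integral_univ_inv_one_add_sq, smul_eq_mul]
  field_simp

/-- upper bound of the mass: near part plus a bounded part -/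
theorem EdgeLaw.Mn_le (h : EdgeLaw lam a b ν) {Γ : ℝ} (hΓ : 0 < Γ) {c : ℝ} (hc : |c| ≤ 2 * lam) :
    Mn ν c Γ ≤ 4 * b * Real.pi * (ph lam c ^ 3 / Γ) + 24 * b * lam ^ 2 := by
  obtain ⟨ρ, hm, hb, h0, hs, hi⟩ := h.integral_eq
  have hlam := h.lam_pos
  have hb0 := h.b_pos
  rw [Mn, hi]
  have h1 : ∀ v, ρ v * (dn c Γ v)⁻¹ ≤
      4 * b * ph lam c ^ 3 * (dn c Γ v)⁻¹ +
        (Icc (-lam) lam).indicator (fun _ => 12 * b * lam) v := by
    intro v
    have hd := dn_pos hΓ c v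
    by_cases hv : v ∈ Icc (-lam) lam
    · rw [indicator_of_mem hv]
      have h2 : ph lam v ≤ ph lam c + |v - c| := ph_lip lam v c
      have h3 : ph lam v ^ 3 ≤ 4 * ph lam c ^ 3 + 4 * |v - c| ^ 3 := by
        have h4 : ph lam v ^ 3 ≤ (ph lam c + |v - c|) ^ 3 :=
          pow_le_pow_left₀ (ph_nonneg _ _) h2 3
        have h5 := ph_nonneg lam c
        have h6 := abs_nonneg (v - c)
        nlinarith [mul_nonneg (add_nonneg h5 h6) (sq_nonneg (ph lam c - |v - c|))]
      have h7 : ρ v ≤ b * (4 * ph lam c ^ 3 + 4 * |v - c| ^ 3) :=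
        (hb v).2.trans (mul_le_mul_of_nonneg_left h3 hb0.le)
      have h8 : |v - c| ^ 3 * (dn c Γ v)⁻¹ ≤ 3 * lam := by
        rw [← div_eq_mul_inv, div_le_iff₀ hd]
        have h9 : |v - c| ≤ 3 * lam := by
          have := abs_sub v c
          have h10 : |v| ≤ lam := abs_le.2 hv
          linarith
        have h11 : |v - c| ^ 2 ≤ dn c Γ v := by
          rw [sq_abs]
          unfold dn
          linarith [sq_nonneg Γ]
        calc |v - c| ^ 3 = |v - c| * |v - c| ^ 2 := by ring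
          _ ≤ (3 * lam) * dn c Γ v :=
            mul_le_mul h9 h11 (sq_nonneg _) (by positivity)
      calc ρ v * (dn c Γ v)⁻¹ ≤ b * (4 * ph lam c ^ 3 + 4 * |v - c| ^ 3) * (dn c Γ v)⁻¹ :=
            mul_le_mul_of_nonneg_right h7 (inv_nonneg.2 hd.le)
        _ = 4 * b * ph lam c ^ 3 * (dn c Γ v)⁻¹ + 4 * b * (|v - c| ^ 3 * (dn c Γ v)⁻¹) := by ring
        _ ≤ 4 * b * ph lam c ^ 3 * (dn c Γ v)⁻¹ + 4 * b * (3 * lam) := by gcongr
        _ = _ := by ring
    · rw [indicator_of_notMem hv, hs v hv, zero_mul, add_zero]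
      exact mul_nonneg (mul_nonneg (by positivity) (pow_nonneg (ph_nonneg _ _) 3))
        (inv_nonneg.2 hd.le)
  have hI1 : Integrable (fun v => 4 * b * ph lam c ^ 3 * (dn c Γ v)⁻¹) :=
    (integrable_dn_inv hΓ c).const_mul _
  have hI2 : Integrable ((Icc (-lam) lam).indicator fun _ : ℝ => 12 * b * lam) :=
    (continuous_const.integrableOn_Icc).integrable_indicator measurableSet_Icc
  have h2 : ∫ v, ρ v * (dn c Γ v)⁻¹ ≤
      ∫ v, (4 * b * ph lam c ^ 3 * (dn c Γ v)⁻¹ +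
        (Icc (-lam) lam).indicator (fun _ => 12 * b * lam) v) :=
    integral_mono_of_nonneg (Filter.Eventually.of_forall fun v =>
      mul_nonneg (h0 v) (inv_nonneg.2 (dn_pos hΓ c v).le)) (hI1.add hI2)
      (Filter.Eventually.of_forall h1)
  refine h2.trans (le_of_eq ?_)
  rw [integral_add hI1 hI2, integral_const_mul, integral_dn_inv hΓ,
    integral_indicator measurableSet_Icc, setIntegral_const, Real.volume_real_Icc_of_le
      (by linarith), smul_eq_mul]
  ring

/-- the mass is at most `1/Γ²` -/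
theorem EdgeLaw.Mn_le' (h : EdgeLaw lam a b ν) {Γ : ℝ} (hΓ : 0 < Γ) (c : ℝ) :
    Mn ν c Γ * Γ ^ 2 ≤ 1 := by
  haveI := h.prob
  have h1 : Mn ν c Γ ≤ ∫ _, (Γ ^ 2)⁻¹ ∂ν := by
    refine integral_mono_of_nonneg (Filter.Eventually.of_forall fun v =>
      inv_nonneg.2 (dn_pos hΓ c v).le) (integrable_const _)
      (Filter.Eventually.of_forall fun v => inv_anti₀ (by positivity) (dn_ge c v))
  rw [integral_const, probReal_univ, one_smul] at h1
  have h2 : 0 < Γ ^ 2 := by positivity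
  calc Mn ν c Γ * Γ ^ 2 ≤ (Γ ^ 2)⁻¹ * Γ ^ 2 := mul_le_mul_of_nonneg_right h1 h2.le
    _ = 1 := inv_mul_cancel₀ h2.ne'

theorem EdgeLaw.Mn_nonneg {Γ : ℝ} (hΓ : 0 < Γ) (c : ℝ) : 0 ≤ Mn ν c Γ :=
  integral_nonneg fun v => inv_nonneg.2 (dn_pos hΓ c v).le

/-- far centre -/
theorem EdgeLaw.Mn_far (h : EdgeLaw lam a b ν) {Γ : ℝ} (hΓ : 0 < Γ) {c : ℝ}
    (hc : 2 * lam < |c|) : Mn ν c Γ * c ^ 2 ≤ 4 := by
  haveI := h.prob
  obtain ⟨ρ, hm, hb, h0, hs, hi⟩ := h.integral_eq
  have hlam := h.lam_pos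
  have hc0 : 0 < c ^ 2 := by
    rw [← sq_abs]
    have : 0 < |c| := by linarith
    positivity
  have h1 : Mn ν c Γ ≤ ∫ _, 4 / c ^ 2 ∂ν := by
    rw [Mn, hi, hi]
    refine integral_mono_of_nonneg (Filter.Eventually.of_forall fun v =>
      mul_nonneg (h0 v) (inv_nonneg.2 (dn_pos hΓ c v).le)) ?_
      (Filter.Eventually.of_forall fun v => ?_)
    · by_contra hcon
      have h3 := hi (fun _ => 4 / c ^ 2)
      rw [integral_undef hcon, integral_const, probReal_univ, one_smul] at h3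
      have : 0 < 4 / c ^ 2 := by positivity
      linarith
    · by_cases hv : v ∈ Icc (-lam) lam
      · refine mul_le_mul_of_nonneg_left ?_ (h0 v)
        have h4 : |v| ≤ lam := abs_le.2 hv
        have h5 : |c| / 2 ≤ |v - c| := by
          have := abs_sub_abs_le_abs_sub c v
          rw [abs_sub_comm] at this
          linarith
        have h6 : c ^ 2 / 4 ≤ dn c Γ v := by
          have h7 : (|c| / 2) ^ 2 ≤ |v - c| ^ 2 :=
            pow_le_pow_left₀ (by positivity) h5 2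
          rw [div_pow, sq_abs, sq_abs] at h7
          unfold dn
          have := sq_nonneg Γ
          linarith
        calc (dn c Γ v)⁻¹ ≤ (c ^ 2 / 4)⁻¹ := inv_anti₀ (by positivity) h6
          _ = 4 / c ^ 2 := by rw [inv_div]
      · show ρ v * _ ≤ ρ v * _
        rw [hs v hv, zero_mul, zero_mul]
  rw [integral_const, probReal_univ, one_smul] at h1
  calc Mn ν c Γ * c ^ 2 ≤ 4 / c ^ 2 * c ^ 2 := mul_le_mul_of_nonneg_right h1 hc0.le
    _ = 4 := div_mul_cancel₀ _ hc0.ne'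

/-- constant of the bad resonances -/
noncomputable def CB (lam b : ℝ) : ℝ :=
  (4 * b * Real.pi * (1 + 40 * lam ^ 2) + 24 * b * lam ^ 2) * (1 + 4 * lam ^ 2) + 6 + 1 / lam ^ 2

/-- **(G2)** a resonance in bad position has bounded mass -/
theorem EdgeLaw.Mn_bad (h : EdgeLaw lam a b ν) {Γ : ℝ} (hΓ : 0 < Γ) {c : ℝ}
    (hg : ¬ good lam c Γ) : Mn ν c Γ ≤ CB lam b / (1 + c ^ 2 + Γ ^ 2) := by
  have hlam := h.lam_pos
  have hb0 := h.b_pos
  have hπ := Real.pi_pos
  have hM := EdgeLaw.Mn_nonneg (ν := ν) hΓ c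
  rw [le_div_iff₀ (by positivity)]
  have h1 := h.Mn_le' hΓ c
  have hphc := ph_nonneg lam c
  rcases le_or_gt |c| (2 * lam) with hc | hc
  · have h2 : ph lam c ^ 3 / Γ ≤ 1 + 40 * lam ^ 2 := by
      rw [div_le_iff₀ hΓ]
      unfold good at hg
      rw [not_and_or, not_le, not_le] at hg
      rcases hg with h3 | h3
      · have h4 : ph lam c ^ 2 ≤ lam ^ 2 := pow_le_pow_left₀ hphc (ph_le hlam.le c) 2
        calc ph lam c ^ 3 = ph lam c ^ 2 * ph lam c := by ring
          _ ≤ lam ^ 2 * (40 * Γ) := mul_le_mul h4 h3.le hphc (by positivity)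
          _ ≤ (1 + 40 * lam ^ 2) * Γ := by nlinarith
      · calc ph lam c ^ 3 ≤ Γ := h3.le
          _ ≤ (1 + 40 * lam ^ 2) * Γ := by nlinarith [mul_nonneg (sq_nonneg lam) hΓ.le]
    have h3 := h.Mn_le hΓ hc
    have h4 : Mn ν c Γ ≤ 4 * b * Real.pi * (1 + 40 * lam ^ 2) + 24 * b * lam ^ 2 :=
      h3.trans (by gcongr)
    have h5 : c ^ 2 ≤ 4 * lam ^ 2 := by
      have := pow_le_pow_left₀ (abs_nonneg c) hc 2
      rw [sq_abs] at this
      linarith
    have h6 : Mn ν c Γ * (1 + c ^ 2) ≤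
        (4 * b * Real.pi * (1 + 40 * lam ^ 2) + 24 * b * lam ^ 2) * (1 + 4 * lam ^ 2) :=
      mul_le_mul h4 (by linarith) (by positivity) (by positivity)
    have h7 : 0 < 1 / lam ^ 2 := by positivity
    unfold CB
    nlinarith
  · have h2 := h.Mn_far hΓ hc
    have h3 : Mn ν c Γ ≤ 1 / lam ^ 2 := by
      rw [le_div_iff₀ (by positivity)]
      have h4 : 4 * lam ^ 2 ≤ c ^ 2 := by
        have := pow_le_pow_left₀ (by positivity) hc.le 2
        rw [sq_abs] at this
        linarith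
      nlinarith
    have h7 : 0 ≤ (4 * b * Real.pi * (1 + 40 * lam ^ 2) + 24 * b * lam ^ 2) *
      (1 + 4 * lam ^ 2) := by positivity
    unfold CB
    nlinarith

/-- average of `g` over the circle (Cauchy law of centre `c` and width `Γ`) -/
noncomputable def avg (c Γ : ℝ) (g : ℝ → ℝ) : ℝ := Γ / Real.pi * ∫ v, g v * (dn c Γ v)⁻¹

theorem avg_nonneg {Γ : ℝ} (hΓ : 0 < Γ) (c : ℝ) {g : ℝ → ℝ} (hg : ∀ v, 0 ≤ g v) :
    0 ≤ avg c Γ g :=
  mul_nonneg (div_nonneg hΓ.le Real.pi_pos.le)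
    (integral_nonneg fun v => mul_nonneg (hg v) (inv_nonneg.2 (dn_pos hΓ c v).le))

theorem integrable_mul_dn {Γ : ℝ} (hΓ : 0 < Γ) (c : ℝ) {g : ℝ → ℝ} (hgm : Measurable g) {B : ℝ}
    (hg : ∀ v, 0 ≤ g v) (hB : ∀ v, g v ≤ B) : Integrable (fun v => g v * (dn c Γ v)⁻¹) := by
  refine ((integrable_dn_inv hΓ c).const_mul B).mono'
    (hgm.mul (continuous_dn c Γ).measurable.inv).aestronglyMeasurable
    (Filter.Eventually.of_forall fun v => ?_)
  have hd := inv_nonneg.2 (dn_pos hΓ c v).le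
  rw [Real.norm_eq_abs, abs_of_nonneg (mul_nonneg (hg v) hd)]
  exact mul_le_mul_of_nonneg_right (hB v) hd

/-- the arc `|v - c| ≤ 20 Γ` carries half of the average -/
theorem arc_half {Γ : ℝ} (hΓ : 0 < Γ) (c : ℝ) {g : ℝ → ℝ} (hgm : Measurable g)
    (hg : ∀ v, 0 ≤ g v) (hB : ∀ v, g v ≤ 5 * avg c Γ g) :
    Real.pi / Γ * (avg c Γ g / 2) ≤
      ∫ v, {v | |v - c| ≤ 20 * Γ}.indicator (fun v => g v * (dn c Γ v)⁻¹) v := by
  set S : Set ℝ := {v | |v - c| ≤ 20 * Γ} with hS
  have hSm : MeasurableSet S :=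
    measurableSet_le ((continuous_id.sub continuous_const).abs.measurable) measurable_const
  have hI := integrable_mul_dn hΓ c hgm hg hB
  have hπ := Real.pi_pos
  have h1 : ∫ v, g v * (dn c Γ v)⁻¹ = Real.pi / Γ * avg c Γ g := by
    rw [avg]
    field_simp
  have h2 : ∀ v, g v * (dn c Γ v)⁻¹ ≤ S.indicator (fun v => g v * (dn c Γ v)⁻¹) v +
      5 * avg c Γ g * (2 * (dn c (20 * Γ) v)⁻¹) := by
    intro v
    have h0 := avg_nonneg hΓ c hg
    have hd := dn_pos hΓ c v
    have hd2 := dn_pos (Γ := 20 * Γ) (by positivity) c v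
    by_cases hv : v ∈ S
    · rw [indicator_of_mem hv]
      have : 0 ≤ 5 * avg c Γ g * (2 * (dn c (20 * Γ) v)⁻¹) :=
        mul_nonneg (by positivity) (mul_nonneg (by norm_num) (inv_nonneg.2 hd2.le))
      linarith
    · rw [indicator_of_notMem hv, zero_add]
      have h3 : 20 * Γ < |v - c| := by
        by_contra hcon
        exact hv (not_lt.1 hcon)
      have h4 : (20 * Γ) ^ 2 ≤ (v - c) ^ 2 := by
        have := pow_le_pow_left₀ (by positivity) h3.le 2
        rwa [sq_abs] at this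
      have h5 : (dn c Γ v)⁻¹ ≤ 2 * (dn c (20 * Γ) v)⁻¹ := by
        rw [← div_eq_mul_inv, le_div_iff₀ hd2, inv_mul_le_iff₀ hd]
        unfold dn
        nlinarith [sq_nonneg Γ]
      exact mul_le_mul (hB v) h5 (inv_nonneg.2 hd.le) (by positivity)
  have hI3 : Integrable (fun v => 5 * avg c Γ g * (2 * (dn c (20 * Γ) v)⁻¹)) :=
    ((integrable_dn_inv (Γ := 20 * Γ) (by positivity) c).const_mul 2).const_mul _
  have hI2 : Integrable (S.indicator (fun v => g v * (dn c Γ v)⁻¹)) := hI.indicator hSm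
  have h3 := integral_mono hI (hI2.add hI3) h2
  rw [h1] at h3
  have h4 : ∫ v, (S.indicator (fun v => g v * (dn c Γ v)⁻¹) v +
      5 * avg c Γ g * (2 * (dn c (20 * Γ) v)⁻¹)) =
      (∫ v, S.indicator (fun v => g v * (dn c Γ v)⁻¹) v) +
        5 * avg c Γ g * (2 * (Real.pi / (20 * Γ))) := by
    rw [integral_add hI2 hI3, integral_const_mul, integral_const_mul,
      integral_dn_inv (by positivity)]
  have h5 : ∫ v, ((S.indicator fun v => g v * (dn c Γ v)⁻¹) + fun v =>
      5 * avg c Γ g * (2 * (dn c (20 * Γ) v)⁻¹)) v =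
      ∫ v, (S.indicator (fun v => g v * (dn c Γ v)⁻¹) v +
      5 * avg c Γ g * (2 * (dn c (20 * Γ) v)⁻¹)) := rfl
  rw [h5, h4] at h3
  have h6 : 5 * avg c Γ g * (2 * (Real.pi / (20 * Γ))) = Real.pi / Γ * (avg c Γ g / 2) := by
    field_simp
    ring
  rw [h6] at h3
  have h7 : Real.pi / Γ * avg c Γ g = Real.pi / Γ * (avg c Γ g / 2) +
    Real.pi / Γ * (avg c Γ g / 2) := by ring
  linarith

/-- constant of good resonances -/
noncomputable def CG (lam a b : ℝ) : ℝ := (4 * b * Real.pi + 24 * b * lam ^ 2) * (16 / (a * Real.pi))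

/-- **(G1)** at a good position the law dominates the uniform law on the circle -/
theorem EdgeLaw.good_avg (h : EdgeLaw lam a b ν) {Γ : ℝ} (hΓ : 0 < Γ) {c : ℝ}
    (hg : good lam c Γ) {g : ℝ → ℝ} (hgm : Measurable g) (hg0 : ∀ v, 0 ≤ g v)
    (hB : ∀ v, g v ≤ 5 * avg c Γ g) :
    Mn ν c Γ * avg c Γ g ≤ CG lam a b * ∫ v, g v * (dn c Γ v)⁻¹ ∂ν := by
  obtain ⟨ρ, hm, hb, h0, hs, hi⟩ := h.integral_eq
  have hlam := h.lam_pos
  have ha0 := h.a_pos
  have hb0 := h.b_pos
  have hπ := Real.pi_pos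
  have hA := avg_nonneg hΓ c hg0
  have hφ : 0 < ph lam c := lt_of_lt_of_le (by positivity) hg.1
  have hc : |c| ≤ 2 * lam := by
    by_contra hcon
    push Not at hcon
    rw [ph_zero (by linarith)] at hφ
    exact lt_irrefl _ hφ
  have h1 : Mn ν c Γ ≤ (4 * b * Real.pi + 24 * b * lam ^ 2) * (ph lam c ^ 3 / Γ) := by
    refine (h.Mn_le hΓ hc).trans ?_
    have h2 : 1 ≤ ph lam c ^ 3 / Γ := by
      rw [le_div_iff₀ hΓ, one_mul]
      exact hg.2
    have h3 : 0 ≤ 24 * b * lam ^ 2 := by positivity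
    nlinarith
  have h2 : (a * ph lam c ^ 3 / 8) * (Real.pi / Γ * (avg c Γ g / 2)) ≤
      ∫ v, g v * (dn c Γ v)⁻¹ ∂ν := by
    rw [hi]
    have h3 := arc_half hΓ c hgm hg0 hB
    have h4 : (a * ph lam c ^ 3 / 8) * (Real.pi / Γ * (avg c Γ g / 2)) ≤
        ∫ v, (a * ph lam c ^ 3 / 8) *
          {v | |v - c| ≤ 20 * Γ}.indicator (fun v => g v * (dn c Γ v)⁻¹) v := by
      rw [integral_const_mul]
      exact mul_le_mul_of_nonneg_left h3 (by positivity)
    refine h4.trans (integral_mono_of_nonneg (Filter.Eventually.of_forall fun v => ?_) ?_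
      (Filter.Eventually.of_forall fun v => ?_))
    · refine mul_nonneg (by positivity) (indicator_nonneg (fun v _ => ?_) v)
      exact mul_nonneg (hg0 v) (inv_nonneg.2 (dn_pos hΓ c v).le)
    · have h5 : Integrable (fun v => b * lam ^ 3 * (g v * (dn c Γ v)⁻¹)) :=
        (integrable_mul_dn hΓ c hgm hg0 hB).const_mul _
      refine h5.mono' (hm.mul (hgm.mul (continuous_dn c Γ).measurable.inv)).aestronglyMeasurable
        (Filter.Eventually.of_forall fun v => ?_)
      have hd := mul_nonneg (hg0 v) (inv_nonneg.2 (dn_pos hΓ c v).le)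
      rw [Real.norm_eq_abs, abs_of_nonneg (mul_nonneg (h0 v) hd)]
      refine mul_le_mul_of_nonneg_right ((hb v).2.trans ?_) hd
      exact mul_le_mul_of_nonneg_left (pow_le_pow_left₀ (ph_nonneg _ _) (ph_le hlam.le v) 3) hb0.le
    · have hd := mul_nonneg (hg0 v) (inv_nonneg.2 (dn_pos hΓ c v).le)
      show a * ph lam c ^ 3 / 8 * {v | |v - c| ≤ 20 * Γ}.indicator
        (fun v => g v * (dn c Γ v)⁻¹) v ≤ ρ v * (g v * (dn c Γ v)⁻¹)
      by_cases hv : v ∈ {v | |v - c| ≤ 20 * Γ}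
      · rw [indicator_of_mem hv]
        refine mul_le_mul_of_nonneg_right ?_ hd
        have h6 : ph lam c / 2 ≤ ph lam v := by
          have h7 := ph_lip lam c v
          rw [abs_sub_comm] at h7
          have h8 : |v - c| ≤ 20 * Γ := hv
          linarith [hg.1]
        have h7 : (ph lam c / 2) ^ 3 ≤ ph lam v ^ 3 := pow_le_pow_left₀ (by positivity) h6 3
        calc a * ph lam c ^ 3 / 8 = a * (ph lam c / 2) ^ 3 := by ring
          _ ≤ a * ph lam v ^ 3 := mul_le_mul_of_nonneg_left h7 ha0.le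
          _ ≤ ρ v := (hb v).1
      · rw [indicator_of_notMem hv, mul_zero]
        exact mul_nonneg (h0 v) hd
  have h3 : (0 : ℝ) ≤ 16 / (a * Real.pi) := by positivity
  calc Mn ν c Γ * avg c Γ g
      ≤ (4 * b * Real.pi + 24 * b * lam ^ 2) * (ph lam c ^ 3 / Γ) * avg c Γ g :=
        mul_le_mul_of_nonneg_right h1 hA
    _ = CG lam a b * ((a * ph lam c ^ 3 / 8) * (Real.pi / Γ * (avg c Γ g / 2))) := by
        unfold CG
        field_simp
        ring
    _ ≤ _ := mul_le_mul_of_nonneg_left h2 (by unfold CG; positivity)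

end core

/-! ### the smooth law of T1 is of this kind -/

section nus

variable {lam l : ℝ}

theorem rhoB_le_ph (hl : 0 < l) {c v : ℝ} (hc : c ∈ Icc (-(lam - l)) (lam - l)) :
    Bump.rhoB c l v ≤ 15 / (4 * l ^ 3) * ph lam v ^ 2 := by
  by_cases hv : |v - c| ≤ l
  · rw [Bump.rhoB_eq hl hv]
    have h1 : |c| ≤ lam - l := abs_le.2 hc
    have h2 : l - |v - c| ≤ ph lam v := by
      have h3 : |v| ≤ |c| + |v - c| := by
        have := abs_sub_abs_le_abs_sub v c
        linarith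
      exact le_trans (by linarith) (le_max_right _ _)
    have h3 : 0 ≤ l - |v - c| := by linarith
    have h4 : 1 - ((v - c) / l) ^ 2 ≤ 2 * (l - |v - c|) / l := by
      rw [div_pow, ← sq_abs (v - c)]
      have h5 : 1 - |v - c| ^ 2 / l ^ 2 = (l - |v - c|) * (l + |v - c|) / l ^ 2 := by
        field_simp
        ring
      rw [h5, div_le_div_iff₀ (by positivity) hl]
      nlinarith [mul_nonneg h3 (mul_nonneg hl.le h3)]
    have h5 : 0 ≤ 1 - ((v - c) / l) ^ 2 := by
      rw [div_pow, ← sq_abs (v - c), sub_nonneg, div_le_one (by positivity)]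
      exact pow_le_pow_left₀ (abs_nonneg _) hv 2
    have h6 : (1 - ((v - c) / l) ^ 2) ^ 2 ≤ (2 * ph lam v / l) ^ 2 := by
      refine pow_le_pow_left₀ h5 (h4.trans ?_) 2
      gcongr
    calc 15 / (16 * l) * (1 - ((v - c) / l) ^ 2) ^ 2 ≤ 15 / (16 * l) * (2 * ph lam v / l) ^ 2 :=
          mul_le_mul_of_nonneg_left h6 (by positivity)
      _ = _ := by
          field_simp
          ring
  · rw [Bump.rhoB_eq_zero hl]
    · positivity
    · intro h
      exact hv (abs_le.2 ⟨by linarith [h.1], by linarith [h.2]⟩)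

theorem rhoB_zero_out (hl : 0 < l) {c v : ℝ} (hv : ¬ |v - c| ≤ l) : Bump.rhoB c l v = 0 := by
  rw [Bump.rhoB_eq_zero hl]
  intro h
  exact hv (abs_le.2 ⟨by linarith [h.1], by linarith [h.2]⟩)

theorem integral_c_le (hl : 0 < l) (h : l < lam) (v : ℝ) :
    ∫ c, Bump.rhoB c l v ∂(muc lam l) ≤ 15 / (4 * l ^ 3) * ph lam v ^ 3 := by
  rw [muc]
  have h1 : ∫ c in Icc (-(lam - l)) (lam - l), Bump.rhoB c l v =
      ∫ c in Icc (-(lam - l)) (lam - l),
        (Icc (v - l) (v + l)).indicator (fun c => Bump.rhoB c l v) c := by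
    refine setIntegral_congr_fun measurableSet_Icc fun c _ => ?_
    by_cases hc : c ∈ Icc (v - l) (v + l)
    · simp only [indicator_of_mem hc]
    · simp only [indicator_of_notMem hc]
      refine rhoB_zero_out hl fun h2 => hc ?_
      rw [abs_le] at h2
      exact ⟨by linarith [h2.2], by linarith [h2.1]⟩
  rw [h1, setIntegral_indicator measurableSet_Icc]
  have h2 : volume.real (Icc (-(lam - l)) (lam - l) ∩ Icc (v - l) (v + l)) ≤ ph lam v := by
    rw [Icc_inter_Icc]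
    rcases le_or_gt (max (-(lam - l)) (v - l)) (min (lam - l) (v + l)) with h3 | h3
    · rw [Real.volume_real_Icc_of_le h3]
      refine le_trans ?_ (le_max_right _ _)
      have h4 := min_le_left (lam - l) (v + l)
      have h5 := min_le_right (lam - l) (v + l)
      have h6 := le_max_left (-(lam - l)) (v - l)
      have h7 := le_max_right (-(lam - l)) (v - l)
      rcases abs_cases v with ⟨h8, _⟩ | ⟨h8, _⟩
      · rw [h8]; linarith
      · rw [h8]; linarith
    · rw [Icc_eq_empty (not_le.2 h3)]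
      simpa using ph_nonneg lam v
  have h3 := norm_setIntegral_le_of_norm_le_const (μ := volume)
    (s := Icc (-(lam - l)) (lam - l) ∩ Icc (v - l) (v + l))
    (f := fun c => Bump.rhoB c l v) (C := 15 / (4 * l ^ 3) * ph lam v ^ 2)
    ((measure_mono inter_subset_left).trans_lt (by rw [Real.volume_Icc]; exact ENNReal.ofReal_lt_top))
    (fun c hc => by
      rw [Real.norm_eq_abs, abs_of_nonneg (Bump.rhoB_nonneg hl)]
      exact rhoB_le_ph hl hc.1)
  refine (Real.le_norm_self _).trans (h3.trans ?_)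
  have h4 : (0 : ℝ) ≤ 15 / (4 * l ^ 3) * ph lam v ^ 2 := by positivity
  calc 15 / (4 * l ^ 3) * ph lam v ^ 2 *
        volume.real (Icc (-(lam - l)) (lam - l) ∩ Icc (v - l) (v + l))
      ≤ 15 / (4 * l ^ 3) * ph lam v ^ 2 * ph lam v := mul_le_mul_of_nonneg_left h2 h4
    _ = _ := by ring

theorem rhoB_ge (hl : 0 < l) {c v d : ℝ} (hd : 0 ≤ d) (hdl : d ≤ l) (h : |v - c| ≤ l - d / 2) :
    15 / (64 * l ^ 3) * d ^ 2 ≤ Bump.rhoB c l v := by
  rw [Bump.rhoB_eq hl (by linarith)]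
  have h1 : d / (2 * l) ≤ 1 - ((v - c) / l) ^ 2 := by
    rw [div_pow, ← sq_abs (v - c)]
    have h0 := abs_nonneg (v - c)
    have h5 : 1 - |v - c| ^ 2 / l ^ 2 = (l - |v - c|) * (l + |v - c|) / l ^ 2 := by
      field_simp
      ring
    rw [h5, div_le_div_iff₀ (by positivity) (by positivity)]
    have h6 : d / 2 ≤ l - |v - c| := by linarith
    have h7 : l ≤ l + |v - c| := by linarith
    have h8 : d / 2 * l ≤ (l - |v - c|) * (l + |v - c|) :=
      mul_le_mul h6 h7 hl.le (by linarith)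
    nlinarith
  have h2 : (d / (2 * l)) ^ 2 ≤ (1 - ((v - c) / l) ^ 2) ^ 2 :=
    pow_le_pow_left₀ (by positivity) h1 2
  calc 15 / (64 * l ^ 3) * d ^ 2 = 15 / (16 * l) * (d / (2 * l)) ^ 2 := by
        field_simp
        ring
    _ ≤ _ := mul_le_mul_of_nonneg_left h2 (by positivity)

theorem integral_c_ge_aux (hl : 0 < l) (h : l < lam) {v d α β : ℝ} (hd : 0 ≤ d) (hdl : d ≤ l)
    (hαβ : β - α = d / 2) (hα : -(lam - l) ≤ α) (hβ : β ≤ lam - l)
    (hJ : ∀ c ∈ Icc α β, |v - c| ≤ l - d / 2) :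
    15 / (128 * l ^ 3) * d ^ 3 ≤ ∫ c, Bump.rhoB c l v ∂(muc lam l) := by
  have hle : α ≤ β := by linarith
  have hi := integrable_rhoB_c (lam := lam) hl v
  have h1 : ∫ c in Icc α β, Bump.rhoB c l v ≤ ∫ c, Bump.rhoB c l v ∂(muc lam l) := by
    rw [muc] at hi ⊢
    exact setIntegral_mono_set hi (Filter.Eventually.of_forall fun c => Bump.rhoB_nonneg hl)
      (Icc_subset_Icc hα hβ).eventuallyLE
  have h2 : ∫ _ in Icc α β, 15 / (64 * l ^ 3) * d ^ 2 ≤ ∫ c in Icc α β, Bump.rhoB c l v := by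
    refine setIntegral_mono_on (by
      refine (continuous_const.integrableOn_Icc)) ?_ measurableSet_Icc
      fun c hc => rhoB_ge hl hd hdl (hJ c hc)
    rw [muc] at hi
    exact hi.mono_measure (Measure.restrict_mono (Icc_subset_Icc hα hβ) le_rfl)
  rw [setIntegral_const, Real.volume_real_Icc_of_le hle, hαβ, smul_eq_mul] at h2
  refine le_trans (le_of_eq ?_) (h2.trans h1)
  field_simp
  ring

theorem integral_c_ge (hl : 0 < l) (h : 2 * l ≤ lam) (v : ℝ) :
    15 / (128 * lam ^ 3) * ph lam v ^ 3 ≤ ∫ c, Bump.rhoB c l v ∂(muc lam l) := by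
  have hlam : 0 < lam := by linarith
  have hp0 := ph_nonneg lam v
  have hp1 := ph_le hlam.le v
  set d : ℝ := min (ph lam v) l with hd
  have hd0 : 0 ≤ d := le_min hp0 hl.le
  have hdl : d ≤ l := min_le_right _ _
  have hdp : d ≤ ph lam v := min_le_left _ _
  have h1 : ph lam v * (l / lam) ≤ d := by
    refine le_min ?_ ?_
    · exact mul_le_of_le_one_right hp0 ((div_le_one hlam).2 (by linarith))
    · calc ph lam v * (l / lam) ≤ lam * (l / lam) :=
          mul_le_mul_of_nonneg_right hp1 (by positivity)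
        _ = l := by field_simp
  have h2 : 15 / (128 * lam ^ 3) * ph lam v ^ 3 ≤ 15 / (128 * l ^ 3) * d ^ 3 := by
    calc 15 / (128 * lam ^ 3) * ph lam v ^ 3 = 15 / (128 * l ^ 3) * (ph lam v * (l / lam)) ^ 3 := by
          field_simp
      _ ≤ _ := by gcongr
  refine h2.trans ?_
  rcases eq_or_lt_of_le hp0 with hp | hp
  · have h3 : d = 0 := le_antisymm (by rw [hd, ← hp]; exact min_le_left _ _) hd0
    rw [h3]
    simp only [ne_eq, OfNat.ofNat_ne_zero, not_false_eq_true, zero_pow, mul_zero]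
    exact integral_nonneg fun c => Bump.rhoB_nonneg hl
  have hpe : ph lam v = lam - |v| := by
    unfold ph at hp ⊢
    rcases max_cases 0 (lam - |v|) with ⟨h3, _⟩ | ⟨h3, _⟩
    · rw [h3] at hp
      exact absurd hp (lt_irrefl _)
    · exact h3
  rcases le_total 0 v with hv | hv
  · rw [abs_of_nonneg hv] at hpe
    refine integral_c_ge_aux hl (by linarith) hd0 hdl (α := v - l + d / 2) (β := v - l + d)
      (by ring) (by linarith) (by linarith) fun c hc => ?_
    rw [abs_le]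
    exact ⟨by linarith [hc.2], by linarith [hc.1]⟩
  · rw [abs_of_nonpos hv] at hpe
    refine integral_c_ge_aux hl (by linarith) hd0 hdl (α := v + l - d) (β := v + l - d / 2)
      (by ring) (by linarith) (by linarith) fun c hc => ?_
    rw [abs_le]
    exact ⟨by linarith [hc.2], by linarith [hc.1]⟩

/-- **the smooth law of T1** -/
theorem edgeLaw_nuS (hl : 0 < l) (h : 2 * l ≤ lam) :
    EdgeLaw lam ((2 * (lam - l))⁻¹ * (15 / (128 * lam ^ 3)))
      ((2 * (lam - l))⁻¹ * (15 / (4 * l ^ 3))) (nuS lam l) := by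
  have hll : l < lam := by linarith
  have hlam : 0 < lam := by linarith
  have h0 : 0 < 2 * (lam - l) := by linarith
  have hk : ∀ v, (2 * (lam - l))⁻¹ * (15 / (128 * lam ^ 3)) * ph lam v ^ 3 ≤ rhoS lam l v ∧
      rhoS lam l v ≤ (2 * (lam - l))⁻¹ * (15 / (4 * l ^ 3)) * ph lam v ^ 3 := by
    intro v
    unfold rhoS
    constructor
    · rw [mul_assoc]
      exact mul_le_mul_of_nonneg_left (integral_c_ge hl h v) (inv_nonneg.2 h0.le)
    · rw [mul_assoc]
      exact mul_le_mul_of_nonneg_left (integral_c_le hl hll v) (inv_nonneg.2 h0.le)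
  refine ⟨isProbabilityMeasure_nuS hl hll, hlam, by positivity, by positivity,
    rhoS lam l, measurable_rhoS lam l, ?_, hk⟩
  rw [nuS, muv, ← withDensity_indicator measurableSet_Icc]
  congr 1
  funext v
  by_cases hv : v ∈ Icc (-lam) lam
  · rw [indicator_of_mem hv]
  · rw [indicator_of_notMem hv]
    have h1 : ph lam v = 0 := by
      refine ph_zero ?_
      by_contra h2
      push Not at h2
      exact hv ⟨by linarith [(abs_lt.1 h2).1], by linarith [(abs_lt.1 h2).2]⟩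
    have h2 := (hk v).2
    rw [h1] at h2
    rw [ENNReal.ofReal_of_nonpos]
    simpa using h2

end nus

/-! ### (G3): content of a site in bad position -/

section g3

variable {ι : Type*} [Fintype ι] [DecidableEq ι] {A : Matrix ι ι ℝ} {W : ι → ℂ}

/-- centre of the resonance of `z` on the line of `V_z`, energy `E` -/
noncomputable def cz (A : Matrix ι ι ℝ) (W : ι → ℂ) (E : ℝ) (z : ι) : ℝ := (sg A W z).re + E

/-- width of the resonance of `z`, own absorption `e` -/
noncomputable def Gz (A : Matrix ι ι ℝ) (W : ι → ℂ) (e : ℝ) (z : ι) : ℝ := (sg A W z).im + e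

theorem norm_sq_line (A : Matrix ι ι ℝ) (W : ι → ℂ) (E e v : ℝ) (z : ι) :
    ‖((v - E : ℝ) : ℂ) - (e : ℂ) * Complex.I - sg A W z‖ ^ 2 =
      dn (cz A W E z) (Gz A W e z) v := by
  rw [← Complex.normSq_eq_norm_sq, Complex.normSq_apply, dn, cz, Gz]
  simp
  ring

end g3

end P365T2.H862
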