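import Vale.Agent.P365.T2.OneWire905
import Vale.Agent.P365.T2.H862.BadSum

/-!
# P365-T2: the bad energy of OneDet in terms of the contents `Mf` (helper862)
-/

set_option linter.all false

open Finset

namespace P365T2.H862.Wire

open Matrix Complex P365L P365T1 P365T2.H905

variable {ι κ : Type*} [Fintype ι] [DecidableEq ι] [Fintype κ]

variable {A : Matrix ι ι ℝ} {W : ι → ℂ} (hA : A.IsSymm) (hW : ∀ x, (W x).im < 0)
  (F : κ → ι → ℝ) (om : ι → ℝ) (h0 : ∀ x, 0 ≤ om x) (h1 : ∀ x, om x ≤ 1)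

/-- `pi_v V_v = e_v Σ_k M_v(F_k)` -/
theorem pw_mul_V (v : ι) :
    (datOf A W hA hW F om h0 h1).pw v * (datOf A W hA hW F om h0 h1).V v =
      (-(W v).im) * ∑ k, Mf A W (F k) v := by
  unfold Dat.V Dat.pw Dat.P Dat.d2 Mf
  have hm := (mm_pos hA hW v).ne'
  rw [Finset.mul_sum, Finset.sum_comm, Finset.mul_sum]
  refine Finset.sum_congr rfl fun x _ => ?_
  rw [← Finset.mul_sum]
  show (-(W v).im * mm A W v) * (-(W x).im * KK A W v x / mm A W v *
    ∑ k, (F k v - F k x) ^ 2) = -(W v).im * (-(W x).im * KK A W v x * ∑ k, (F k x - F k v) ^ 2)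
  have h2 : ∑ k, (F k x - F k v) ^ 2 = ∑ k, (F k v - F k x) ^ 2 :=
    Finset.sum_congr rfl fun k _ => by ring
  rw [h2]
  field_simp

/-- the bad energy -/
theorem BadE_eq (Z : Finset ι) :
    Ker.BadE (datOf A W hA hW F om h0 h1) Z = ∑ v ∈ Z, (-(W v).im) * ∑ k, Mf A W (F k) v :=
  Finset.sum_congr rfl fun v _ => pw_mul_V hA hW F om h0 h1 v

/-- the total energy -/
theorem En_eq : (datOf A W hA hW F om h0 h1).En = ∑ v, (-(W v).im) * ∑ k, Mf A W (F k) v := by
  rw [Dat.En_eq]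
  exact Finset.sum_congr rfl fun v _ => pw_mul_V hA hW F om h0 h1 v

end P365T2.H862.Wire
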